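import Vale.Agent.P281.H511.Surf.Defs
import Mathlib.LinearAlgebra.Projectivization.Basic

/-!
# P281V55: `κ` as the dimension of the image; the orbifold base and the squares, word for word
-/

open scoped Topology Manifold ContDiff ENNReal
open Set Filter Vale.Agent.P281
open Vale.Agent.P281.H713.TZ.S (Cm)
open Vale.Agent.P281.H511.Surf (IsFibration)

noncomputable section

namespace Vale.Agent.P281V55

/-- the complex projective space `ℙ^N` -/
abbrev PN (N : ℕ) : Type := Projectivization ℂ (Fin (N + 1) → ℂ)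

/-- `W ⊆ ℙ^N` contains a complex submanifold of dimension `d`: the image of a neighbourhood of the
origin of `ℂ^d` by a holomorphic immersion `γ` into an affine chart `x_j = 1` of `ℙ^N`. -/
def HasPiece {N : ℕ} (W : Set (PN N)) (d : ℕ) : Prop :=
  ∃ (j : Fin (N + 1)) (γ : Cm d → Fin (N + 1) → ℂ), AnalyticAt ℂ γ 0 ∧
    Function.Injective (fderiv ℂ γ 0) ∧
    ∀ᶠ t in 𝓝 (0 : Cm d), γ t j = 1 ∧ ∃ h : γ t ≠ 0, Projectivization.mk ℂ (γ t) h ∈ W

/-- The dimension of `W ⊆ ℙ^N`: the largest dimension of a complex submanifold contained in `W`. -/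
def dimP {N : ℕ} (W : Set (PN N)) : WithBot ℕ∞ :=
  ⨆ (d : ℕ) (_ : HasPiece W d), (d : WithBot ℕ∞)

/-- The image of the meromorphic map `[s_0 : ... : s_N]` to `ℙ^N`, where the `s_b` are given on `U`:
the closure, in the quotient topology of `ℙ^N`, of the set of the points `[s_0(z) : ... : s_N(z)]`,
with `z ∈ U` not a common zero of the `s_b`. -/
def img {X : Type} (U : Set X) {N : ℕ} (s : Fin (N + 1) → X → ℂ) : Set (PN N) :=
  @closure _ (TopologicalSpace.coinduced (Projectivization.mk' ℂ) inferInstance)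
    {x | ∃ z ∈ U, ∃ h : (fun b => s b z) ≠ 0, x = Projectivization.mk ℂ (fun b => s b z) h}

/-- The complement of the support of the divisor `∑ k(i) L_i`, where `L_i` has the local equations
`eqn i`. -/
def Off {X ι : Type} (eqn : ι → X → (X → ℂ) → Prop) (k : ι → ℕ) : Set X :=
  {z | ∀ i, k i ≠ 0 → ∃ g, eqn i z g ∧ g z ≠ 0}

section One

variable (E : Type) [NormedAddCommGroup E] [NormedSpace ℂ E] {X ι : Type} [TopologicalSpace X]
  [ChartedSpace E X]

/-- `s_0, ..., s_N` is a basis of `H^0(X, m (K_X + L))`, where `m L = ∑ k(i) L_i`: a section is a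
meromorphic `m`-canonical form, determined by its values off the support of `L`. -/
def IsBasis (eqn : ι → X → (X → ℂ) → Prop) (m : ℕ) (k : ι → ℕ) {N : ℕ}
    (s : Fin (N + 1) → X → ℂ) : Prop :=
  (∀ b, J.IsSection E eqn m k (s b)) ∧
    (∀ a : Fin (N + 1) → ℂ, (∀ z ∈ Off eqn k, ∑ b, a b * s b z = 0) → a = 0) ∧
    ∀ t, J.IsSection E eqn m k t → ∃ a : Fin (N + 1) → ℂ, ∀ z ∈ Off eqn k, t z = ∑ b, a b * s b z

/-- The spaces `H^0(X, m K_X + ∑ k(i) L_i)` are finite dimensional: those which are not zero have a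
finite basis. -/
def FinDim (eqn : ι → X → (X → ℂ) → Prop) : Prop :=
  ∀ (m : ℕ) (k : ι → ℕ) (t : X → ℂ), J.IsSection E eqn m k t → (∃ z ∈ Off eqn k, t z ≠ 0) →
    ∃ (N : ℕ) (s : Fin (N + 1) → X → ℂ), IsBasis E eqn m k s

/-- `κ(X, K_X + L)`, `L = ∑ c(i) L_i`: the maximal dimension of the images of the maps given by the
complete linear systems `|m (K_X + L)|`, with `m > 0` and `m L` integral (`⊥ = -∞` if they are all
empty). -/
def kappa (eqn : ι → X → (X → ℂ) → Prop) (c : ι → ℝ) : WithBot ℕ∞ :=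
  ⨆ (m : ℕ) (k : ι → ℕ) (N : ℕ) (s : Fin (N + 1) → X → ℂ)
    (_ : 0 < m ∧ (∀ i, k i = m * c i) ∧ IsBasis E eqn m k s), dimP (img (Off eqn k) s)

/-- the local equations of the divisors `D` of `X` -/
def eqX (D : Set X) (x : X) (g : X → ℂ) : Prop := J.IsLocalEq E D g x

/-- the local equations of the pull-backs, by `i : F → X`, of the divisors `D` of `X` -/
def eqR {F : Type} [TopologicalSpace F] (i : F → X) (D : Set X) (t : F) (g : F → ℂ) : Prop :=
  ∃ e, J.IsLocalEq E D e (i t) ∧ ∀ᶠ s in 𝓝 t, g s = e (i s)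

/-- `B` is an analytic subset -/
def IsAnal (B : Set X) : Prop :=
  ∀ y, ∃ (k : ℕ) (g : Fin k → X → ℂ), (∀ a, J.HolAt E (g a) y) ∧
    ∀ᶠ z in 𝓝 y, z ∈ B ↔ ∀ a, g a z = 0

/-- `u : X' → X` is a proper bimeromorphic morphism: it is holomorphic and proper, and biholomorphic
(with the inverse `w`) from the complement of `u⁻¹(B)` onto the complement of `B`, where `B` is an
analytic subset, and `B` and `u⁻¹(B)` are nowhere dense. -/
def IsBimer {X' : Type} [TopologicalSpace X'] [ChartedSpace E X'] (u : X' → X) : Prop :=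
  ContMDiff 𝓘(ℂ, E) 𝓘(ℂ, E) ω u ∧ IsProperMap u ∧ ∃ (B : Set X) (w : X → X'), IsAnal E B ∧
    Dense Bᶜ ∧ Dense (u ⁻¹' B)ᶜ ∧
    (∀ y ∉ B, ContMDiffAt 𝓘(ℂ, E) 𝓘(ℂ, E) ω w y ∧ u (w y) = y) ∧ ∀ x, u x ∉ B → w (u x) = x

end One

/-- `m_Δ(D) = 1 / (1 - Δ_D) ∈ [1, ∞]` -/
def mult {X : Type} (Δ : Set X → ℝ) (D : Set X) : ℝ≥0∞ := 1 / (1 - ENNReal.ofReal (Δ D))

/-- the coefficient of the prime divisor `D` in `u_* Δ'` -/
def push {X' X : Type} (u : X' → X) (Δ' : Set X' → ℝ) (D : Set X) : ℝ :=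
  ∑ᶠ (D' : Set X') (_ : u '' D' = D), Δ' D'

section Two

variable (E E' : Type) [NormedAddCommGroup E] [NormedSpace ℂ E] [NormedAddCommGroup E']
  [NormedSpace ℂ E'] {X Y X' Y' : Type} [TopologicalSpace X] [ChartedSpace E X]
  [TopologicalSpace Y] [ChartedSpace E' Y] [TopologicalSpace X'] [ChartedSpace E X']
  [TopologicalSpace Y'] [ChartedSpace E' Y']

/-- `f^* G = k D` near some point of `D`: `f^* g = e ^ k * unit`, where `e` and `g` are local
equations of `D` and `G` -/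
def IsOrd (f : X → Y) (D : Set X) (G : Set Y) (k : ℕ) : Prop :=
  ∃ x ∈ D, ∃ e g w, J.IsLocalEq E D e x ∧ J.IsLocalEq E' G g (f x) ∧ J.HolAt E w x ∧ w x ≠ 0 ∧
    ∀ᶠ z in 𝓝 x, g (f z) = e z ^ k * w z

/-- `ord_D (f^* G)`, the unique `k` with `IsOrd` (see `OrdUnique`) -/
def ord (f : X → Y) (D : Set X) (G : Set Y) : ℕ := sInf {k | IsOrd E E' f D G k}

/-- `m(f, Δ; G)`, the minimum of `ord_D (f^* G) m_Δ(D)` over the prime divisors `D` with
`f(D) = G` -/
def multB (f : X → Y) (Δ : Set X → ℝ) (G : Set Y) : ℝ≥0∞ :=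
  ⨅ (D : Set X) (_ : J.IsPrime E D ∧ f '' D = G), (ord E E' f D G : ℝ≥0∞) * mult Δ D

open Classical in
/-- the orbifold base `B(f, Δ) = ∑ (1 - 1 / m(f, Δ; G)) G` -/
def orbB (f : X → Y) (Δ : Set X → ℝ) (G : Set Y) : ℝ :=
  if J.IsPrime E' G then (1 - 1 / multB E E' f Δ G).toReal else 0

/-- A commutative square `f ∘ u = v ∘ f'` of fibrations, with `u`, `v` proper bimeromorphic,
`u_* Δ' = Δ`, and `ord_{D'} (u^* D) m_{Δ'}(D') ≥ m_Δ(D)` whenever `ord_{D'} (u^* D) > 0`. -/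
def Square (f' : X' → Y') (Δ' : Set X' → ℝ) (f : X → Y) (Δ : Set X → ℝ) : Prop :=
  IsFibration E E' f' Δ' ∧ IsFibration E E' f Δ ∧ ∃ (u : X' → X) (v : Y' → Y),
    IsBimer E u ∧ IsBimer E' v ∧ f ∘ u = v ∘ f' ∧ (∀ D, J.IsPrime E D → push u Δ' D = Δ D) ∧
    ∀ D' D, J.IsPrime E D' → J.IsPrime E D → 0 < ord E E u D' D →
      mult Δ D ≤ (ord E E u D' D : ℝ≥0∞) * mult Δ' D'

/-- `f : (X, Δ) → Y` -/
structure Orb : Type 1 where
  X : Type
  Y : Type
  tX : TopologicalSpace X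
  tY : TopologicalSpace Y
  cX : ChartedSpace E X
  cY : ChartedSpace E' Y
  f : X → Y
  Δ : Set X → ℝ

attribute [local instance] Orb.tX Orb.tY Orb.cX Orb.cY

/-- `M'` is linked to `M` by a chain of squares (in either direction) -/
def Chain (M M' : Orb E E') : Prop :=
  Relation.EqvGen (fun A B : Orb E E' => Square E E' A.f A.Δ B.f B.Δ) M M'

/-- Campana's orbifold base dimension `κ(f | Δ) = inf κ(Y', K_{Y'} + B(f', Δ'))` -/
def kappaB (M : Orb E E') : WithBot ℕ∞ :=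
  ⨅ (M' : Orb E E') (_ : Chain E E' M M'), kappa E' (eqX E') (orbB E E' M'.f M'.Δ)

/-- the spaces of sections are finite dimensional on the bases of all the linked fibrations -/
def FinDimB (M : Orb E E') : Prop :=
  ∀ M' : Orb E E', Chain E E' M M' → FinDim E' (eqX E' (X := M'.Y))

end Two

/-- `ord` is well defined for the surjective holomorphic maps from connected manifolds -/
def OrdUnique : Prop :=
  ∀ (a b : ℕ) (Z W : Type) [TopologicalSpace Z] [ChartedSpace (Cm a) Z] [TopologicalSpace W]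
    [ChartedSpace (Cm b) W] [IsManifold 𝓘(ℂ, Cm a) ω Z] [IsManifold 𝓘(ℂ, Cm b) ω W]
    [ConnectedSpace Z] (h : Z → W), ContMDiff 𝓘(ℂ, Cm a) 𝓘(ℂ, Cm b) ω h → Function.Surjective h →
    ∀ D G, J.IsPrime (Cm a) D → J.IsPrime (Cm b) G → ∃! k, IsOrd (Cm a) (Cm b) h D G k

end Vale.Agent.P281V55
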