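import Vale.Agent.P281V55.Sq

/-!
# P281V55: the final statement
-/

open scoped Manifold ContDiff
open Set Vale.Agent.P281 Vale.Agent.P281.H713.TZ.S Vale.Agent.P281Z.Top
open Vale.Agent.P281.H511.Surf (IsFibration)

noncomputable section

namespace Vale.Agent.P281V55

attribute [local instance] Fib.tX Fib.tY Fib.cX Fib.cY Orb.tX Orb.tY Orb.cX Orb.cY

variable {n p : ℕ}

/-- translation -/
def toOrb (M : Fib (Cm n) (Cm p)) : Orb (Cm n) (Cm p) :=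
  ⟨M.X, M.Y, M.tX, M.tY, M.cX, M.cY, M.f, M.Δ⟩

theorem chain_of {M M' : Fib (Cm n) (Cm p)} (h : Linked (Cm n) (Cm p) M M') :
    (IsFibration (Cm n) (Cm p) M.f M.Δ ↔ IsFibration (Cm n) (Cm p) M'.f M'.Δ) ∧
      (IsFibration (Cm n) (Cm p) M.f M.Δ → Chain (Cm n) (Cm p) (toOrb M) (toOrb M')) := by
  induction h with
  | rel A B h => exact ⟨⟨fun k => (step_sq h (.inl k)).2.1, fun k => (step_sq h (.inr k)).1⟩,
      fun k => .rel _ _ (step_sq h (.inl k))⟩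
  | refl => exact ⟨Iff.rfl, fun _ => .refl _⟩
  | symm _ _ _ h => exact ⟨h.1.symm, fun k => .symm _ _ (h.2 (h.1.2 k))⟩
  | trans _ _ _ _ _ h h' => exact ⟨h.1.trans h'.1, fun k => .trans _ _ _ (h.2 k) (h'.2 (h.1.1 k))⟩

theorem chain_fib {M M' : Orb (Cm n) (Cm p)} (h : Chain (Cm n) (Cm p) M M') :
    IsFibration (Cm n) (Cm p) M.f M.Δ ↔ IsFibration (Cm n) (Cm p) M'.f M'.Δ := by
  induction h with
  | rel A B h => exact iff_of_true h.1 h.2.1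
  | refl => rfl
  | symm _ _ _ h => exact h.symm
  | trans _ _ _ _ _ h h' => exact h.trans h'

theorem final : OrdUnique ∧ ∀ (n p : ℕ) (X Y : Type)
    [tX : TopologicalSpace X] [cX : ChartedSpace (Cm n) X] [tY : TopologicalSpace Y]
    [cY : ChartedSpace (Cm p) Y] (f : X → Y) (Δ : Set X → ℝ), IsFibration (Cm n) (Cm p) f Δ →
    InC n X →
    FinDim (Cm n) (eqX (Cm n) (X := X)) ∧ FinDimB (Cm n) (Cm p) ⟨X, Y, tX, tY, cX, cY, f, Δ⟩ ∧
    ∃ H : ℕ → Set Y, (∀ k, IsProperAn p (H k)) ∧ ∀ y, (∀ k, y ∉ H k) →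
      (∃ (F : Type) (_ : TopologicalSpace F) (_ : ChartedSpace (Cm (n - p)) F) (i : F → X),
        IsFib n (n - p) f y i) ∧
      ∀ (F : Type) [TopologicalSpace F] [ChartedSpace (Cm (n - p)) F] (i : F → X),
        IsFib n (n - p) f y i → (∀ D, Δ D ≠ 0 → ∃ t, i t ∉ D) ∧
          FinDim (Cm (n - p)) (eqR (Cm n) i) ∧
          kappa (Cm (n - p)) (eqR (Cm n) i) Δ +
            kappaB (Cm n) (Cm p) ⟨X, Y, tX, tY, cX, cY, f, Δ⟩ ≤ kappa (Cm n) (eqX (Cm n)) Δ ∧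
          ∀ Γ : Set Y → ℝ, J.IsSNC (Cm p) Γ → (∀ x G, Γ G ≠ 0 → f x ∈ G → ∃ D, Δ D = 1 ∧ x ∈ D) →
            kappa (Cm (n - p)) (eqR (Cm n) i) Δ + kappa (Cm p) (eqX (Cm p)) Γ ≤
              kappa (Cm n) (eqX (Cm n)) Δ := by
  refine ⟨ordUnique, fun n p X Y tX cX tY cY f Δ hf hX => ?_⟩
  obtain ⟨h1, -, H, h3, h4⟩ := P281W55.final n p X Y f Δ hf hX
  have h5 : kappaB (Cm n) (Cm p) ⟨X, Y, tX, tY, cX, cY, f, Δ⟩ ≤
      P281W55.kappaB (Cm n) (Cm p) ⟨X, Y, tX, tY, cX, cY, f, Δ⟩ :=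
    le_iInf₂ fun M' h => (iInf₂_le (toOrb M') ((chain_of h).2 hf)).trans
      (le_of_eq (congrArg (P281W55.kappa (Cm p) (P281W55.eqX (Cm p)))
        (orbB_eq ((chain_of h).1.1 hf))))
  refine ⟨h1, fun M' h => ?_, H, h3, fun y hy => ⟨(h4 y hy).1, fun F _ _ i hi => ?_⟩⟩
  · have k := (chain_fib h).1 hf
    have := k.hausdorff.2
    have := k.manifold.2
    have := cptY k
    exact P281W55.finDim P281W55.goodX P281W55.dnX
  · obtain ⟨k1, k2, k3, k4⟩ := (h4 y hy).2 F i hi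
    exact ⟨k1, k2, (add_le_add le_rfl h5).trans k3, k4⟩

end Vale.Agent.P281V55
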