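import Vale.Agent.P281V55.Defs
import Vale.Agent.P281W55.Fin

/-!
# P281V55: the order of vanishing along a prime divisor is well defined
-/

open scoped Manifold ContDiff
open Filter Topology Set Function
open Vale.Agent.P277Z Vale.Agent.P281 Vale.Agent.P281Z Vale.Agent.P281Z.Nt
open Vale.Agent.P281.H713.TZ.S (Cm)
open Vale.Agent.P281.H511.Gen (sm subset_closure_sm dif_ne_of_mem_sm)

set_option linter.unusedSectionVars false

noncomputable section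

namespace Vale.Agent.P281V55

variable {a b : ℕ} {Z W : Type} [TopologicalSpace Z] [ChartedSpace (Cm a) Z] [TopologicalSpace W]
  [ChartedSpace (Cm b) W] [IsManifold 𝓘(ℂ, Cm a) ω Z] [IsManifold 𝓘(ℂ, Cm b) ω W] {h : Z → W}
  {D : Set Z} {G : Set W} {k j : ℕ} {z : Z} {e c : Z → ℂ} {g : W → ℂ}

variable (a b) in
/-- `e ^ k` divides `h^* g` at `z` -/
def Dv (h : Z → W) (D : Set Z) (G : Set W) (k : ℕ) (z : Z) : Prop :=
  ∀ e g, J.IsLocalEq (Cm a) D e z → J.IsLocalEq (Cm b) G g (h z) →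
    ∃ c, Hol a c z ∧ ∀ᶠ y in 𝓝 z, g (h y) = e y ^ k * c y

variable (a b) in
/-- the order at `z` is `k` -/
def Ex (h : Z → W) (D : Set Z) (G : Set W) (k : ℕ) (z : Z) : Prop :=
  Dv a b h D G k z ∧ ¬ Dv a b h D G (k + 1) z

theorem dv_of (hh : HolM a b h) (he : J.IsLocalEq (Cm a) D e z) (hg : J.IsLocalEq (Cm b) G g (h z))
    (hc : Hol a c z) (ev : ∀ᶠ y in 𝓝 z, g (h y) = e y ^ k * c y) : Dv a b h D G k z :=
  fun e' g' he' hg' => by
    obtain ⟨u, u1, u2⟩ := P281W55.goodX.dvd D z e' e he' he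
    obtain ⟨v, v1, v2⟩ := P281W55.goodX.dvd G (h z) g g' hg hg'
    refine ⟨_, ((u1.pow k).mul ((hh.at z).hol v1)).mul hc, ?_⟩
    filter_upwards [ev, u2, hh.cont.continuousAt.eventually v2] with y k1 k2 k3
    rw [k3, k1, k2]
    ring

theorem not_dv (he : J.IsLocalEq (Cm a) D e z) (hg : J.IsLocalEq (Cm b) G g (h z))
    (hc : Hol a c z) (ev : ∀ᶠ y in 𝓝 z, g (h y) = e y ^ k * c y)
    (hf : ∃ᶠ y in 𝓝 z, y ∈ D ∧ c y ≠ 0) : ¬ Dv a b h D G (k + 1) z := fun hd => by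
  obtain ⟨c', c1, c2⟩ := hd e g he hg
  have h1 := hc.eq_of_gen ((loc_hol he).mul c1) (by
    filter_upwards [(loc_nz he).gen (loc_hol he), gen_le_nhds z (ev.and c2)] with y k1 k2
    exact mul_left_cancel₀ (pow_ne_zero k k1) (by rw [← k2.1, k2.2]; ring))
  obtain ⟨y, ⟨k1, k2⟩, k3, k4⟩ := (hf.and_eventually (h1.and (loc_ev he))).exists
  exact k2 (by rw [k3, k4.2 k1, zero_mul])

theorem Dv.mono (hd : Dv a b h D G k z) (hj : j ≤ k) : Dv a b h D G j z := fun e g he hg =>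
  let ⟨_, c1, c2⟩ := hd e g he hg
  ⟨_, ((loc_hol he).pow (k - j)).mul c1, c2.mono fun y hy => by
    rw [hy, ← mul_assoc, ← pow_add, Nat.add_sub_cancel' hj]⟩

theorem Ex.uniq (h1 : Ex a b h D G k z) (h2 : Ex a b h D G j z) : k = j :=
  le_antisymm (not_lt.1 fun c => h2.2 (h1.1.mono c)) (not_lt.1 fun c => h1.2 (h2.1.mono c))

theorem ex_loc (hh : HolM a b h) (hz : z ∈ sm a D) (hg : J.IsLocalEq (Cm b) G g (h z))
    (h0 : Nz (fun y => g (h y)) z) : ∃ k, (∀ᶠ y in 𝓝 z, y ∈ D → Ex a b h D G k y) ∧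
      IsOrd (Cm a) (Cm b) h D G k := by
  obtain ⟨hD, e, he, hde⟩ := hz
  have hL := leq_of_loc he fun _ => hde
  have hb : Hol a (fun y => g (h y)) z := (hh.at z).hol (loc_hol hg)
  obtain ⟨k, k1, k2⟩ : ∃ k, Ex a b h D G k z := by
    by_contra c
    obtain ⟨j, hj⟩ := Hp.ord hL hb h0
    have h1 : ∀ k, Dv a b h D G k z := fun k => by
      induction k with
      | zero => exact dv_of hh he hg hb (.of_forall fun y => by simp)
      | succ k ih => exact by_contra fun c' => c ⟨k, ih, c'⟩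
    obtain ⟨c, c1, c2⟩ := h1 j e g he hg
    refine hj.self_of_nhds hD ⟨‖c z‖ + 1, ?_⟩
    filter_upwards [c2, c1.cont.norm.eventually (gt_mem_nhds (lt_add_one ‖c z‖))] with y a1 a2
    rw [a1, norm_mul, norm_pow, mul_comm]
    exact mul_le_mul_of_nonneg_right a2.le (by positivity)
  obtain ⟨c, c1, c2⟩ := k1 e g he hg
  have h1 : ∃ᶠ y in 𝓝 z, y ∈ D ∧ c y ≠ 0 := fun h1 => by
    obtain ⟨c', c3, c4⟩ := Hp.div hL c1 (h1.mono fun y a1 a2 => not_not.1 fun a3 => a1 ⟨a2, a3⟩)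
    refine k2 (dv_of hh he hg c3 ((c2.and c4).mono fun y a1 => ?_))
    rw [a1.1, a1.2]
    ring
  have h2 := (loc_near he).and ((hh.cont.continuousAt.eventually (loc_near hg)).and
    (c1.near.and c2.eventually_nhds))
  refine ⟨k, ?_, ?_⟩
  · filter_upwards [h2, Hp.loc_id hL c1 h1 hD] with y ⟨a1, a2, a3, a4⟩ a5 a6
    exact ⟨dv_of hh a1 a2 a3 a4, not_dv a1 a2 a3 a4 (a5 a6)⟩
  · obtain ⟨y, ⟨a0, a0'⟩, a1, a2, a3, a4⟩ := (h1.and_eventually h2).exists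
    exact ⟨y, a0, e, g, c, a1, a2, hol_iff.1 a3, a0', a4⟩

theorem ordUnique : OrdUnique := by
  intro a b Z W _ _ _ _ _ _ _ h hh hs D G hD hG
  have hh : HolM a b h := hh
  have h1 : ∀ z ∈ sm a D, ∃ k, (∀ᶠ y in 𝓝 z, y ∈ D → Ex a b h D G k y) ∧
      IsOrd (Cm a) (Cm b) h D G k := fun z hz =>
    let ⟨g, hg⟩ := hG.2.1 (h z)
    ex_loc hh hz hg fun c => ((prime_thin hG).pre_surj hh hs).freq z
      ((c.and (hh.cont.continuousAt.eventually (loc_ev hg))).mono fun y k k' => k' (k.2.1 k.1))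
  have h2 : ∀ k, IsOrd (Cm a) (Cm b) h D G k → ∃ y ∈ sm a D, Ex a b h D G k y := by
    rintro k ⟨x, hx, e, g, w, k1, k2, k3, k4, k5⟩
    have k3 := hol_iff.2 k3
    obtain ⟨y, a0, a1, a2, a3, a4, a5⟩ := ((mem_closure_iff_frequently.1
      (subset_closure_sm hD.2.1 hx)).and_eventually ((loc_near k1).and
        ((hh.cont.continuousAt.eventually (loc_near k2)).and (k3.near.and
          (k5.eventually_nhds.and (k3.ne_near k4)))))).exists
    exact ⟨y, a0, dv_of hh a1 a2 a3 a4, not_dv a1 a2 a3 a4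
      (Frequently.filter_mono (frequently_pure.2 ⟨a0.1, a5⟩) (pure_le_nhds y))⟩
  obtain ⟨z, hz⟩ := hD.2.2.nonempty
  obtain ⟨k, k1, k2⟩ := h1 z hz
  refine ⟨k, k2, fun j hj => by_contra fun hne => ?_⟩
  obtain ⟨y, y1, y2⟩ := h2 j hj
  obtain ⟨w, w1, w2, w3⟩ := hD.2.2.2 {y | ∀ᶠ w in 𝓝 y, w ∈ D → Ex a b h D G k w}
    {y | ∀ᶠ w in 𝓝 y, w ∈ D → ¬ Ex a b h D G k w} isOpen_setOfPred_eventually_nhds
    isOpen_setOfPred_eventually_nhds (fun w hw => by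
      obtain ⟨l, l1, -⟩ := h1 w hw
      rcases eq_or_ne l k with rfl | c
      exacts [.inl l1, .inr (l1.mono fun _ a1 a2 a3 => c ((a1 a2).uniq a3))]) ⟨z, hz, k1⟩
    ⟨y, y1, by
      obtain ⟨l, l1, -⟩ := h1 y y1
      obtain rfl := (l1.self_of_nhds y1.1).uniq y2
      exact l1.mono fun _ a1 a2 a3 => hne ((a1 a2).uniq a3)⟩
  exact w3.self_of_nhds w1.1 (w2.self_of_nhds w1.1)

end Vale.Agent.P281V55
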