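import Vale.Agent.P281V55.Ord
import Vale.Agent.P281.H303.Gen.Irr

/-!
# P281V55: the squares, word for word
-/

open scoped Manifold ContDiff ENNReal
open Filter Topology Set Function
open Vale.Agent.P277Z Vale.Agent.P281 Vale.Agent.P281Z Vale.Agent.P281Z.Nt
open Vale.Agent.P281.H713.TZ.S
open Vale.Agent.P281.H511.Gen
open Vale.Agent.P281.H511.Surf (IsFibration)

set_option linter.unusedSectionVars false

noncomputable section

namespace Vale.Agent.P281V55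

variable {n p : ℕ}

section Mod

variable {V V₁ : Mf n} {u : V₁.X → V.X} {B : Set V.X} {Δ' : Set V₁.X → ℝ} {Δ : Set V.X → ℝ}

theorem bimer_of (h : Modif n u B) : IsBimer (Cm n) u :=
  let ⟨w, w1, w2, w3⟩ := h.inv
  ⟨h.hol, h.hol.cont.isProperMap, B, w, fun y => let ⟨k, g, a, b⟩ := h.1.1 y
    ⟨k, g, fun c => hol_iff.1 (a c), b⟩, h.1.2, h.2.dense, fun y hy => ⟨(w3 y hy).1, w1 y⟩, w2⟩

theorem strict_ex (h : Modif n u B) {D : Set V.X} (hD : J.IsPrime (Cm n) D) :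
    ∃ P, J.IsPrime (Cm n) P ∧ u '' P = D := by
  have hN := Md.exc n V V₁ u (Md.wm_of h)
  obtain ⟨y0, a1, a2⟩ := not_subset.1 (StepH.not_sub hN hD)
  obtain ⟨y, hy, a3⟩ := ((mem_closure_iff_frequently.1 (subset_closure_sm hD.2.1 a1)).and_eventually
    (hN.closed.isOpen_compl.mem_nhds a2)).exists
  obtain ⟨x, rfl⟩ := h.surj y
  have hs := imm_iff_sbm.1 (by_contra fun c => a3 ⟨x, c, rfl⟩ : Imm n n u x)
  obtain ⟨b1, g, b2, b3⟩ := id hy
  have hL := hs.leq (h.hol.at x) (leq_of_loc b2 fun _ => b3)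
  obtain ⟨P, p1, p2, p3⟩ := H303.Gen.irr n V₁.X (u ⁻¹' D) (hD.1.preimage h.hol.cont)
    (isHyp_preimage h.hol hD.2.1 fun z c =>
      (h.pre_thin (prime_thin hD)).freq z (c.mono fun _ k k' => k' k))
    x _ (hol_iff.1 hL.hol) (hL.mem.2 b1) (leq_dif hL b1) (hL.1.mono fun _ => Iff.symm)
  refine ⟨P, p1, (image_subset_iff.2 p2).antisymm (subset_of_eventually hD
    (isAnalyticSet_of_an (rem n n V₁ V u P h.hol (prime_an p1))) hy ?_)⟩
  filter_upwards [hs.ev (h.hol.at x) ((loc_ev p3).and hL.1)] with z ⟨w, ⟨k1, k2⟩, k3⟩ k4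
  exact ⟨w, k1.1 (k2.2 (show u w ∈ D from k3 ▸ k4)), k3⟩

theorem strict_uniq (h : Modif n u B) {P P' : Set V₁.X} (hP : J.IsPrime (Cm n) P)
    (hP' : J.IsPrime (Cm n) P') (hD : J.IsPrime (Cm n) (u '' P)) (e : u '' P = u '' P') :
    P = P' := by
  have hN := Md.exc n V V₁ u (Md.wm_of h)
  obtain ⟨_, ⟨x0, a1, rfl⟩, a2⟩ := not_subset.1 (StepH.not_sub hN hD)
  obtain ⟨x, hx, a3⟩ := ((mem_closure_iff_frequently.1 (subset_closure_sm hP.2.1 a1)).and_eventually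
    (h.hol.cont.continuousAt.eventually (hN.closed.isOpen_compl.mem_nhds a2)).eventually_nhds).exists
  refine prime_eq_of_subset hP hP' (subset_of_eventually hP (isAnalyticSet_prime hP') hx ?_)
  filter_upwards [a3] with z k1 k2
  obtain ⟨z', k3, k4⟩ := e.le (mem_image_of_mem u k2)
  exact h.inj_imm (by_contra fun c => k1 ⟨z, c, rfl⟩) k4 ▸ k3

theorem push_eq (h : Modif n u B) (h' : J.IsSNC (Cm n) Δ') (hp : ∀ D, J.IsPrime (Cm n) D →
    J.IsPrime (Cm n) (u '' D) → Δ' D = Δ (u '' D)) (D : Set V.X) (hD : J.IsPrime (Cm n) D) :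
    push u Δ' D = Δ D := by
  classical
  obtain ⟨P, p1, rfl⟩ := strict_ex h hD
  rw [push, finsum_eq_single _ P fun P' c => ?_, finsum_eq_if, if_pos rfl, hp P p1 hD]
  rw [finsum_eq_if]
  exact ite_eq_right_iff.2 fun e => by_contra fun c' =>
    c (strict_uniq h p1 (h'.2.1 P' c') hD e.symm).symm

theorem enn {a b : ℝ} {k : ℕ} (hk : 0 < k) (ha : 0 ≤ a) (hb : 0 ≤ b) (h : 1 - a ≤ k * (1 - b)) :
    1 / (1 - ENNReal.ofReal b) ≤ k * (1 / (1 - ENNReal.ofReal a)) := by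
  have h1 := ENNReal.ofReal_le_ofReal h
  rw [ENNReal.ofReal_mul (Nat.cast_nonneg k), ENNReal.ofReal_sub 1 ha, ENNReal.ofReal_sub 1 hb,
    ENNReal.ofReal_natCast, ENNReal.ofReal_one] at h1
  have h2 : (k : ℝ≥0∞) ≠ 0 := Nat.cast_ne_zero.2 hk.ne'
  rw [one_div, one_div]
  calc _ = k * (k * (1 - ENNReal.ofReal b))⁻¹ := by
        rw [ENNReal.mul_inv (.inl h2) (.inl (ENNReal.natCast_ne_top k)), ← mul_assoc,
          ENNReal.mul_inv_cancel h2 (ENNReal.natCast_ne_top k), one_mul]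
    _ ≤ _ := mul_le_mul_right (ENNReal.inv_le_inv.2 h1) _

theorem orb_le (hu : HolM n n u) (h' : J.IsSNC (Cm n) Δ') (hΔ : J.IsSNC (Cm n) Δ)
    (ho : OrbMor (Cm n) (Cm n) u Δ' Δ) (D' : Set V₁.X) (D : Set V.X) (hD' : J.IsPrime (Cm n) D')
    (h0 : 0 < ord (Cm n) (Cm n) u D' D) :
    mult Δ D ≤ (ord (Cm n) (Cm n) u D' D : ℝ≥0∞) * mult Δ' D' := by
  classical
  have ha : 0 ≤ Δ' D' := let ⟨_, a, b, _⟩ := h'.2.2.1 D'; a ▸ by exact_mod_cast b
  have hb : 0 ≤ Δ D := let ⟨_, a, b, _⟩ := hΔ.2.2.1 D; a ▸ by exact_mod_cast b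
  refine enn h0 ha hb ?_
  by_cases c : Δ D = 0
  · have : (1 : ℝ) ≤ ord (Cm n) (Cm n) u D' D := by exact_mod_cast h0
    rw [c]
    linarith
  obtain ⟨x, hx, e, g, w, k1, k2, k3, k4, k5⟩ := Nat.sInf_mem (Nat.nonempty_of_pos_sInf h0)
  have k3 := hol_iff.2 k3
  have hf : {P | Δ' P ≠ 0 ∧ P ≠ D'}.Finite := h'.1.subset fun _ k => k.1
  have hA : ∀ P ∈ {P | Δ' P ≠ 0 ∧ P ≠ D'}, H64.Gen.IsAnalyticSet (Cm n) P := fun P k =>
    isAnalyticSet_prime (h'.2.1 P k.1)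
  obtain ⟨z, ⟨a0, a0'⟩, a1, a2, a3, a4, a5⟩ := ((mem_closure_iff_frequently.1 (subset_closure_diff
    hD' (isAnalyticSet_sUnion hf hA) (fun k =>
      let ⟨P, b1, b2⟩ := exists_subset_of_subset_sUnion hD' hf hA k
      b1.2 (prime_eq_of_subset hD' (h'.2.1 P b1.1) b2).symm) hx)).and_eventually ((loc_near k1).and
        ((hu.cont.continuousAt.eventually (loc_near k2)).and (k3.near.and
          (k5.eventually_nhds.and (k3.ne_near k4)))))).exists
  have h1 := ho z D g e w _ c a2 (hol_iff.1 (loc_hol a1)) ((loc_mem a1).2 a0.1)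
    (dif_ne_of_mem_sm a0 a1) (hol_iff.1 a3) a5 h0 a4
  rwa [finsum_eq_single _ D' fun P k => ?_, finsum_eq_if, if_pos a0.1] at h1
  rw [finsum_eq_if]
  exact ite_eq_right_iff.2 fun b => by_contra fun b' => a0' ⟨P, ⟨b', k⟩, b⟩

end Mod

theorem cpt_of {X X' : Type} [TopologicalSpace X] [ChartedSpace (Cm n) X] [TopologicalSpace X']
    [ChartedSpace (Cm n) X'] {u : X' → X} (h : IsModif (Cm n) u) :
    CompactSpace X' ↔ CompactSpace X := by
  obtain ⟨-, -, h5, U, -, h6, -, h7⟩ := h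
  refine ⟨fun _ => ⟨?_⟩, fun k => ⟨h5.isCompact_preimage k.1⟩⟩
  rw [← (h6.mono fun x hx => (h7 x hx).exists : Dense (range u)).closure_eq,
    h5.isClosedMap.isClosed_range.closure_eq]
  exact isCompact_range h5.continuous

variable {X Y X' Y' : Type} [TopologicalSpace X] [ChartedSpace (Cm n) X] [TopologicalSpace Y]
  [ChartedSpace (Cm p) Y] [TopologicalSpace X'] [ChartedSpace (Cm n) X'] [TopologicalSpace Y']
  [ChartedSpace (Cm p) Y'] {f : X → Y} {f' : X' → Y'} {Δ : Set X → ℝ} {Δ' : Set X' → ℝ}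

theorem cptY (h : IsFibration (Cm n) (Cm p) f Δ) : CompactSpace Y :=
  @Function.Surjective.compactSpace _ _ _ _ f h.hol.continuous h.compact
    fun y => (h.fibres y).nonempty

theorem step_sq (h : IsStep (Cm n) (Cm p) f' Δ' f Δ)
    (k : IsFibration (Cm n) (Cm p) f' Δ' ∨ IsFibration (Cm n) (Cm p) f Δ) :
    Square (Cm n) (Cm p) f' Δ' f Δ := by
  obtain ⟨u, v, hu, hv, hc, hf, hf', s, s', h1, h2⟩ := h
  obtain ⟨a1, a2, a3, a4⟩ := hu.1
  obtain ⟨b1, b2, b3, b4⟩ := hv.1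
  have c1 : CompactSpace X' := k.elim (·.compact) fun k => (cpt_of hu).2 k.compact
  have c2 : CompactSpace Y' := k.elim cptY fun k => (cpt_of hv).2 (cptY k)
  have c3 := (cpt_of hu).1 c1
  have c4 := (cpt_of hv).1 c2
  obtain ⟨B, hB⟩ := Tp.modif_of genS (V := ⟨X⟩) (V₁ := ⟨X'⟩) hu
  obtain ⟨C, hC⟩ := Tp.modif_of genS (V := ⟨Y⟩) (V₁ := ⟨Y'⟩) hv
  have hB : Modif n u B := hB
  have hC : Modif p v C := hC
  have h3 : IsFibration (Cm n) (Cm p) f' Δ' → IsFibration (Cm n) (Cm p) f Δ := fun k =>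
    have := k.connected
    ⟨⟨a1, b1⟩, c3, hB.connX, ⟨a3, b3⟩, hf, fun y => by
      have e : f ⁻¹' {y} = u '' (f' ⁻¹' (v ⁻¹' {y})) := by
        rw [← image_preimage_eq (f ⁻¹' {y}) hB.surj]
        exact congrArg _ (Set.ext fun x => by simp [hc])
      rw [e]
      exact (conn_pre hf'.continuous k.fibres (isClosed_singleton.preimage hC.hol.cont)
        (hC.conn_all y)).image u hB.hol.cont.continuousOn, s⟩
  have h4 : IsFibration (Cm n) (Cm p) f Δ → IsFibration (Cm n) (Cm p) f' Δ' := fun k => by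
    have := k.connected
    have := hB.conn
    have e : ∀ y, v y ∉ C → IsConnected (f' ⁻¹' {y}) := fun y hy => by
      rw [show f' ⁻¹' {y} = u ⁻¹' (f ⁻¹' {v y}) from Set.ext fun x =>
        ⟨fun c => (hc x).trans (congrArg v c), fun c => hC.inj hy ((hc x).symm.trans c)⟩]
      exact conn_pre hB.hol.cont hB.conn_all (isClosed_singleton.preimage hf.continuous)
        (k.fibres _)
    exact ⟨⟨a2, b2⟩, c1, this, ⟨a4, b4⟩, hf', Fibn.conn_all (n := n) (p := p) ⟨hf', fun y =>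
      (isCompact_range hf'.continuous).isClosed.closure_subset
        (closure_mono (fun z hz => (e z hz).1) (hC.2.dense y)), _, hC.thin_pre, e⟩, s'⟩
  exact ⟨k.elim id h4, k.elim h3 id, u, v, bimer_of (V := ⟨X⟩) (V₁ := ⟨X'⟩) hB,
    bimer_of (V := ⟨Y⟩) (V₁ := ⟨Y'⟩) hC, funext hc,
    push_eq (V := ⟨X⟩) (V₁ := ⟨X'⟩) hB s' h1, fun D' D k1 _ =>
      orb_le (V := ⟨X⟩) (V₁ := ⟨X'⟩) hB.hol s' s h2 D' D k1⟩

theorem orbB_eq (h : IsFibration (Cm n) (Cm p) f Δ) :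
    orbB (Cm n) (Cm p) f Δ = base (Cm n) (Cm p) f Δ := by
  have := h.compact
  have := h.hausdorff.2
  funext G
  simp only [orbB, base, multB, mult, one_div]
  congr 4
  refine iInf_congr fun D => iInf_congr_Prop (and_congr_right fun k => ?_) fun _ => rfl
  rw [(k.1.isCompact.image h.hol.continuous).isClosed.closure_eq]

end Vale.Agent.P281V55
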